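import Vale.Agent.P338.R2.H968.Bp.CopyA
import Vale.Agent.P338.R2.H490.Cok

/-!
P338, stage 3: the copy programs of a piece.
-/

namespace Vale.Agent.P338.R2.H968.Bp

open Vale.Agent.P338.R2.H898
open Vale.Agent.P338.R2.H968
open Vale.Agent.P338.R2.H784
open Vale.Agent.P338.R2.H784.Fp
open Vale.Agent.P338.R2.H784.Bp
open Vale.Agent.P338.R2.H490 (spreadG carG trimG lowG highG run_spreadG run_carG run_trimG
  run_lowG run_highG)

variable {A A₀ : MTM} {Y : Type} [DecidableEq (LG A.Tape A₀.Tape Y)] [DecidableEq (Al A A₀)]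

/-- The copy programs. -/
def cC (A A₀ : MTM) (Y : Type) [DecidableEq (LG A.Tape A₀.Tape Y)] [DecidableEq (Al A A₀)] :
    CP A A₀ Y where
  spread := spreadG A A₀ Y
  pair := pairP A A₀ Y
  car := carG A A₀ Y
  add := addP A A₀ Y
  trim := trimG A A₀ Y
  cpw := cpwP A A₀ Y
  low := lowG A A₀ Y
  high := highG A A₀ Y

theorem cC_ok : COk (cC A A₀ Y) 21 where
  spread v h hv hw ht hl := (run_spreadG v h hv hw ht hl).mono (Nat.mul_le_mul_right _ (by omega))
  pair h hx hy ht hw hw' := run_pairP h hx hy ht hw hw'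
  car i v hi h hv hv0 hw hl := (run_carG i v hi h hv hv0 hw hl).mono
    (Nat.mul_le_mul_right _ (by omega))
  add h hx hy hw hn := run_addP h hx hy hw hn
  trim h hw hO hl := (run_trimG h hw hO hl).mono (Nat.mul_le_mul_right _ (by omega))
  cpw k h _ hk hw hy := run_cpwP k h hk hw hy
  low h hw hO hl := (run_lowG h hw hO hl).mono (Nat.mul_le_mul_right _ (by omega))
  high h hw hO hl := (run_highG h hw hO hl).mono (Nat.mul_le_mul_right _ (by omega))

end Vale.Agent.P338.R2.H968.Bp
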