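import Vale.Agent.P338.R2.H784.Bp.Spec
import Vale.Agent.P338.R2.H784.Lib
import Vale.Agent.P338.R2.H968.PadCall

/-!
P338, stage 3: macros on files: appending, merging and adding files.
-/

namespace Vale.Agent.P338.R2.H968.Bp

open Vale.Agent.P338.R2.H898 Prog
open Vale.Agent.P338.R2.H968
open Vale.Agent.P338.R2.H784 (clr run_clr)
open Vale.Agent.P338.R2.H525 (slotAt)
open Vale.Agent.P338.R2.H784.Bp (pairB addB)
open Function (update)

variable {M F α : Type} [DecidableEq F] {d : α}

theorem upd4 {I O : F} (h : I ≠ O) (z : F → Zip α) (a b c e : Zip α) :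
    update (update (update (update z I a) O b) I c) O e = update (update z I c) O e := by
  funext k
  by_cases h1 : k = O
  · subst h1
    simp
  · by_cases h2 : k = I
    · subst h2
      simp [Function.update_of_ne h1]
    · simp [Function.update_of_ne h1, Function.update_of_ne h2]

theorem upd3 {I O : F} (h : I ≠ O) (z : F → Zip α) (a b c : Zip α) :
    update (update (update z I a) O b) I c = update (update z I c) O b := by
  funext k
  by_cases h1 : k = O
  · subst h1
    simp [Function.update_of_ne h.symm]
  · by_cases h2 : k = I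
    · subst h2
      simp [Function.update_of_ne h1]
    · simp [Function.update_of_ne h1, Function.update_of_ne h2]

/-! ## Appending -/

/-- Copy the rest of the file `I` to the end of the file `O`. -/
def drain (e : α) (I O : F) : Prog M F α := .loop (fun _ x => (x I).isSome) (copy1 e I O)

theorem run_drain {e : α} {I O : F} (hIO : I ≠ O) {m : M} (x : List α) :
    ∀ (u v : List α) (z : F → Zip α), z I = ⟨u, x⟩ → z O = ⟨v, []⟩ →
    Run d (drain e I O) ⟨m, z⟩ (4 * x.length + 1)
      ⟨m, update (update z I ⟨x.reverse ++ u, []⟩) O ⟨x.reverse ++ v, []⟩⟩ := by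
  induction x with
  | nil =>
    intro u v z hI hO
    have h1 : Run d (drain e I O) ⟨m, z⟩ 1 ⟨m, z⟩ :=
      Run.loopF (by simp [Store.reads, hI])
    rw [List.reverse_nil, List.nil_append, List.nil_append, upd_self z I _ hI, upd_self z O _ hO]
    exact h1
  | cons a x ih =>
    intro u v z hI hO
    have h1 := run_copy1 (d := d) (e := e) (m := m) hIO hI hO
    have h2 := ih (a :: u) (a :: v) (update (update z I ⟨a :: u, x⟩) O ⟨a :: v, []⟩)
      (by rw [Function.update_of_ne hIO, Function.update_self]) (Function.update_self _ _ _)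
    have h3 := Run.loopT (d := d) (c := fun _ x => (x I).isSome)
      (s := (⟨m, z⟩ : Store M F α)) (by simp [Store.reads, hI]) h1 h2
    rw [upd4 hIO] at h3
    rw [List.reverse_cons, List.append_assoc, List.append_assoc]
    refine Run.mono ?_ (show 1 + 3 + (4 * x.length + 1) ≤ 4 * (a :: x).length + 1 by
      rw [List.length_cons]; omega)
    exact h3

/-- Append the file `I` to the file `O`; the file `I` is cleared. -/
def appF (e : α) (I O : F) : Prog M F α := .seq (drain e I O) (clr I)

theorem run_appF {e : α} {I O : F} (hIO : I ≠ O) {m : M} {x v : List α} {z : F → Zip α}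
    (hI : z I = ⟨[], x⟩) (hO : z O = ⟨v, []⟩) :
    Run d (appF e I O) ⟨m, z⟩ (4 * x.length + 3)
      ⟨m, update (update z I ⟨[], []⟩) O ⟨x.reverse ++ v, []⟩⟩ := by
  have h1 := run_drain (d := d) (e := e) (m := m) hIO x [] v z hI hO
  have h2 := run_clr (d := d) I m
    (update (update z I ⟨x.reverse ++ [], []⟩) O ⟨x.reverse ++ v, []⟩)
  rw [upd3 hIO] at h2
  exact (Run.seq h1 h2).mono (by omega)

/-! ## Merging -/

/-- Blocks of length `|rb|` are taken alternately from `X` and from `Y`. -/
def mergeL (e : α) (X Y O rb : F) : Prog M F α :=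
  .loop (fun _ x => (x X).isSome) (.seq (copyN e X O rb) (copyN e Y O rb))

/-- The merged list. -/
def mrg (b : ℕ) : ℕ → List α → List α → List α
  | 0, _, _ => []
  | n + 1, x, y => x.take b ++ (y.take b ++ mrg b n (x.drop b) (y.drop b))

theorem upd6 {X Y O : F} (hXY : X ≠ Y) (hXO : X ≠ O) (hYO : Y ≠ O) (z : F → Zip α)
    (a b c e a' b' c' : Zip α) :
    update (update (update (update (update (update (update z X a) O b) Y c) O e) X a') Y b') O c'
      = update (update (update z X a') Y b') O c' := by
  funext k
  by_cases h1 : k = O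
  · subst h1
    simp
  · by_cases h2 : k = Y
    · subst h2
      simp [Function.update_of_ne h1]
    · by_cases h3 : k = X
      · subst h3
        simp [Function.update_of_ne h1, Function.update_of_ne h2]
      · simp [Function.update_of_ne h1, Function.update_of_ne h2, Function.update_of_ne h3]

theorem run_mergeL {e : α} {X Y O rb : F} (hXY : X ≠ Y) (hXO : X ≠ O) (hYO : Y ≠ O)
    (hXb : X ≠ rb) (hYb : Y ≠ rb) (hOb : O ≠ rb) {R : List α} (hR : 1 ≤ R.length) {m : M}
    (n : ℕ) : ∀ (x y u v o : List α) (z : F → Zip α), x.length = n * R.length →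
    y.length = n * R.length → z rb = ⟨[], R⟩ → z X = ⟨u, x⟩ → z Y = ⟨v, y⟩ → z O = ⟨o, []⟩ →
    Run d (mergeL e X Y O rb) ⟨m, z⟩ (n * (10 * R.length + 5) + 1)
      ⟨m, update (update (update z X ⟨x.reverse ++ u, []⟩) Y ⟨y.reverse ++ v, []⟩) O
        ⟨(mrg R.length n x y).reverse ++ o, []⟩⟩ := by
  induction n with
  | zero =>
    intro x y u v o z hx hy hb hX hY hO
    obtain rfl : x = [] := List.length_eq_zero_iff.1 (by simpa using hx)
    obtain rfl : y = [] := List.length_eq_zero_iff.1 (by simpa using hy)
    have h1 : Run d (mergeL e X Y O rb) ⟨m, z⟩ 1 ⟨m, z⟩ :=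
      Run.loopF (by simp [Store.reads, hX])
    simp only [mrg, List.reverse_nil, List.nil_append]
    rw [upd_self z X _ hX, upd_self z Y _ hY, upd_self z O _ hO]
    exact h1.mono (by omega)
  | succ n ih =>
    intro x y u v o z hx hy hb hX hY hO
    have hx1 : (x.take R.length).length = R.length := by
      rw [List.length_take, hx, min_eq_left (Nat.le_mul_of_pos_left _ (by omega))]
    have hy1 : (y.take R.length).length = R.length := by
      rw [List.length_take, hy, min_eq_left (Nat.le_mul_of_pos_left _ (by omega))]
    have ex : x = x.take R.length ++ x.drop R.length := (List.take_append_drop _ _).symm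
    have ey : y = y.take R.length ++ y.drop R.length := (List.take_append_drop _ _).symm
    have h1 := run_copyN (d := d) (e := e) (m := m) (z := z) (f := X) (g := O) (r := rb)
      (x := x.take R.length) (y := x.drop R.length) (u := u) (v := o) hXO hXb hOb hx1
      (by rw [← ex]; exact hX) hO hb
    have h2 := run_copyN (d := d) (e := e) (m := m) (z := update (update z X
      ⟨(x.take R.length).reverse ++ u, x.drop R.length⟩) O
      ⟨(x.take R.length).reverse ++ o, []⟩) (f := Y) (g := O) (r := rb)
      (x := y.take R.length) (y := y.drop R.length) (u := v)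
      (v := (x.take R.length).reverse ++ o) hYO hYb hOb hy1
      (by rw [← ey, Function.update_of_ne hYO, Function.update_of_ne hXY.symm]; exact hY)
      (Function.update_self _ _ _)
      (by rw [Function.update_of_ne hOb.symm, Function.update_of_ne hXb.symm]; exact hb)
    have h3 := ih (x.drop R.length) (y.drop R.length) ((x.take R.length).reverse ++ u)
      ((y.take R.length).reverse ++ v)
      ((y.take R.length).reverse ++ ((x.take R.length).reverse ++ o))
      (update (update (update (update z X
      ⟨(x.take R.length).reverse ++ u, x.drop R.length⟩) O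
      ⟨(x.take R.length).reverse ++ o, []⟩) Y ⟨(y.take R.length).reverse ++ v,
        y.drop R.length⟩) O ⟨(y.take R.length).reverse ++ ((x.take R.length).reverse ++ o), []⟩)
      (by
        rw [List.length_drop, hx, Nat.add_mul, Nat.one_mul]
        omega)
      (by
        rw [List.length_drop, hy, Nat.add_mul, Nat.one_mul]
        omega)
      (by
        rw [Function.update_of_ne hOb.symm, Function.update_of_ne hYb.symm,
          Function.update_of_ne hOb.symm, Function.update_of_ne hXb.symm]
        exact hb)
      (by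
        rw [Function.update_of_ne hXO, Function.update_of_ne hXY,
          Function.update_of_ne hXO, Function.update_self])
      (by rw [Function.update_of_ne hYO, Function.update_self]) (Function.update_self _ _ _)
    rw [upd6 hXY hXO hYO] at h3
    have hne : x ≠ [] := by
      intro h
      rw [h, List.length_nil] at hx
      have : 1 ≤ (n + 1) * R.length := Nat.mul_pos (by omega) (by omega)
      omega
    have h4 := Run.loopT (d := d) (c := fun _ x => (x X).isSome)
      (s := (⟨m, z⟩ : Store M F α)) (by
        obtain ⟨a, l, hl⟩ := List.exists_cons_of_ne_nil hne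
        simp [Store.reads, hX, hl]) (Run.seq h1 h2) h3
    have e1 : x.reverse ++ u = (x.drop R.length).reverse ++ ((x.take R.length).reverse ++ u) := by
      rw [← List.append_assoc, ← List.reverse_append, List.take_append_drop]
    have e2 : y.reverse ++ v = (y.drop R.length).reverse ++ ((y.take R.length).reverse ++ v) := by
      rw [← List.append_assoc, ← List.reverse_append, List.take_append_drop]
    have e3 : (mrg R.length (n + 1) x y).reverse ++ o =
        (mrg R.length n (x.drop R.length) (y.drop R.length)).reverse ++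
          ((y.take R.length).reverse ++ ((x.take R.length).reverse ++ o)) := by
      simp [mrg]
    rw [e1, e2, e3]
    refine Run.mono h4 ?_
    ring_nf
    omega

theorem mrg_eq (b : ℕ) : ∀ (n : ℕ) (x y : List α),
    mrg b n x y = (List.range n).flatMap fun t =>
      ((x.drop (t * b)).take b) ++ ((y.drop (t * b)).take b) := by
  intro n
  induction n with
  | zero => intro x y; rfl
  | succ n ih =>
    intro x y
    rw [mrg, ih, List.range_succ_eq_map, List.flatMap_cons, List.flatMap_map]
    simp only [Nat.zero_mul, List.drop_zero, List.append_assoc, List.drop_drop]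
    congr 2
    refine List.flatMap_congr fun t _ => ?_
    rw [show b + t * b = (t + 1) * b by ring]

theorem mrg_map (b : ℕ) {β : Type} (f : β → α) : ∀ (n : ℕ) (x y : List β),
    mrg b n (x.map f) (y.map f) = (mrg b n x y).map f := by
  intro n
  induction n with
  | zero => intro x y; rfl
  | succ n ih =>
    intro x y
    rw [mrg, mrg, ← List.map_drop, ← List.map_drop, ih]
    simp [List.map_take]

/-- Merge the files `X` and `Y` (blocks of length `|rb|`) to the empty file `O`; the files `X` and
`Y` are cleared. -/
def mergeF (e : α) (X Y O rb : F) : Prog M F α :=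
  .seq (mergeL e X Y O rb) (.seq (act O .rew) (.seq (clr X) (clr Y)))

theorem run_mergeF {e : α} {X Y O rb : F} (hXY : X ≠ Y) (hXO : X ≠ O) (hYO : Y ≠ O)
    (hXb : X ≠ rb) (hYb : Y ≠ rb) (hOb : O ≠ rb) {R : List α} (hR : 1 ≤ R.length) {m : M}
    {bit : Bool → α} {n : ℕ} {x y : List Bool} {z : F → Zip α} (hx : x.length = n * R.length)
    (hy : y.length = n * R.length) (hb : z rb = ⟨[], R⟩) (hX : z X = ⟨[], x.map bit⟩)
    (hY : z Y = ⟨[], y.map bit⟩) (hO : z O = ⟨[], []⟩) :
    Run d (mergeF e X Y O rb) ⟨m, z⟩ (n * (10 * R.length + 5) + 6)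
      ⟨m, update (update (update z X ⟨[], []⟩) Y ⟨[], []⟩) O
        ⟨[], (pairB R.length n x y).map bit⟩⟩ := by
  have h1 := run_mergeL (d := d) (e := e) (m := m) hXY hXO hYO hXb hYb hOb hR n (x.map bit)
    (y.map bit) [] [] [] z (by simpa using hx) (by simpa using hy) hb hX hY hO
  set z1 := update (update (update z X ⟨(x.map bit).reverse ++ [], []⟩) Y
    ⟨(y.map bit).reverse ++ [], []⟩) O
        ⟨(mrg R.length n (x.map bit) (y.map bit)).reverse ++ [], []⟩ with hz1
  have h2 := run_act' (d := d) (f := O) (o := .rew) (m := m) (z := z1)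
    (v := ⟨[], mrg R.length n (x.map bit) (y.map bit)⟩) (by
      rw [hz1, Function.update_self]
      simp)
  have h3 := run_clr (d := d) X m (update z1 O ⟨[], mrg R.length n (x.map bit) (y.map bit)⟩)
  have h4 := run_clr (d := d) Y m (update (update z1 O ⟨[], mrg R.length n (x.map bit)
    (y.map bit)⟩) X ⟨[], []⟩)
  have e1 : (pairB R.length n x y).map bit = mrg R.length n (x.map bit) (y.map bit) := by
    rw [mrg_map, mrg_eq]
    rfl
  have e2 : update (update (update z1 O ⟨[], mrg R.length n (x.map bit)
      (y.map bit)⟩) X ⟨[], []⟩) Y ⟨[], []⟩ = update (update (update z X ⟨[], []⟩) Y ⟨[], []⟩) O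
        ⟨[], mrg R.length n (x.map bit) (y.map bit)⟩ := by
    rw [hz1]
    funext k
    simp only [Function.update_apply]
    split_ifs <;> simp_all
  rw [e2] at h4
  rw [e1]
  refine (Run.seq h1 (Run.seq h2 (Run.seq h3 h4))).mono ?_
  omega

/-! ## Adding -/

/-- Go to the end of a file. -/
def toEnd (X : F) : Prog M F α := .loop (fun _ x => (x X).isSome) (act X .right)

theorem run_toEnd {X : F} {m : M} (x : List α) : ∀ (u : List α) (z : F → Zip α), z X = ⟨u, x⟩ →
    Run d (toEnd X) ⟨m, z⟩ (2 * x.length + 1) ⟨m, update z X ⟨x.reverse ++ u, []⟩⟩ := by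
  induction x with
  | nil =>
    intro u z hX
    have h1 : Run d (toEnd X) ⟨m, z⟩ 1 ⟨m, z⟩ := Run.loopF (by simp [Store.reads, hX])
    rw [List.reverse_nil, List.nil_append, upd_self z X _ hX]
    exact h1
  | cons a x ih =>
    intro u z hX
    have h1 := run_act' (d := d) (f := X) (o := .right) (m := m) (z := z) (v := ⟨a :: u, x⟩)
      (by rw [hX]; rfl)
    have h2 := ih (a :: u) (update z X ⟨a :: u, x⟩) (Function.update_self _ _ _)
    rw [Function.update_idem] at h2
    have h3 := Run.loopT (d := d) (c := fun _ x => (x X).isSome)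
      (s := (⟨m, z⟩ : Store M F α)) (by simp [Store.reads, hX]) h1 h2
    rw [List.reverse_cons, List.append_assoc]
    refine Run.mono h3 ?_
    rw [List.length_cons]
    omega

/-- Sum of three bits. -/
def sm3 (a b c : Bool) : Bool := xor (xor a b) c

/-- Carry of three bits. -/
def cy3 (a b c : Bool) : Bool := (a && b) || (a && c) || (b && c)

theorem cy3_sm3 (a b c : Bool) : cy3 (sm3 (sm3 a b c) b c) b c = cy3 a b c := by
  cases a <;> cases b <;> cases c <;> rfl

/-- The bit under a head. -/
def ub (unbit : α → Bool) (d : α) (x : Option α) : Bool := unbit (x.getD d)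

/-- One position of the addition. -/
def addS (unbit : α → Bool) (bit : Bool → α) (d : α) (X Y C : F) : Prog M F α :=
  .seq (act X .left)
    (.seq (.prim fun m x => (m, some (X, .write (bit (sm3 (ub unbit d (x X)) (ub unbit d (x Y))
      (ub unbit d (x C)))))))
    (.seq (.prim fun m x => (m, some (C, .write (bit (cy3 (sm3 (ub unbit d (x X))
        (ub unbit d (x Y)) (ub unbit d (x C))) (ub unbit d (x Y)) (ub unbit d (x C)))))))
      (.seq (act Y .trunc) (act Y .left))))

/-- Sum of lists of bits, least significant bit first. -/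
def addl : List Bool → List Bool → Bool → List Bool
  | a :: as, b :: bs, c => sm3 a b c :: addl as bs (cy3 a b c)
  | _, _, _ => []

/-- The last carry. -/
def cyl : List Bool → List Bool → Bool → Bool
  | a :: as, b :: bs, c => cyl as bs (cy3 a b c)
  | _, _, c => c

/-- The last carry, as the contents of a file. -/
theorem addl_spec : ∀ (a b : List Bool) (c : Bool), a.length = b.length →
    (addl a b c).length = a.length ∧
    H778.val (addl a b c).reverse + 2 ^ a.length * (cyl a b c).toNat =
      H778.val a.reverse + H778.val b.reverse + c.toNat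
  | [], [], c, _ => by simp [addl, cyl]
  | a :: as, b :: bs, c, h => by
    obtain ⟨h1, h2⟩ := addl_spec as bs (cy3 a b c) (by simpa using h)
    have key : (sm3 a b c).toNat + 2 * (cy3 a b c).toNat = a.toNat + b.toNat + c.toNat := by
      cases a <;> cases b <;> cases c <;> rfl
    refine ⟨by simp [addl, h1], ?_⟩
    simp only [addl, cyl, List.reverse_cons, List.length_cons, H778.val_append,
      List.length_nil, Nat.zero_add, pow_one, H778.val_singleton, pow_succ, pow_zero, one_mul]
    nlinarith [h2, key]

/-- The loop of the addition. -/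
def addLoop (unbit : α → Bool) (bit : Bool → α) (d : α) (X Y C : F) : Prog M F α :=
  .loop (fun _ x => (x Y).isSome) (addS unbit bit d X Y C)

theorem run_addS {unbit : α → Bool} {bit : Bool → α} (hub : ∀ b, unbit (bit b) = b) {e : α}
    {X Y C : F} (hXY : X ≠ Y) (hXC : X ≠ C) (hYC : Y ≠ C) {m : M} {a b c : Bool}
    {la lb r : List α} {z : F → Zip α} (hX : z X = ⟨bit a :: la, r⟩)
    (hY : z Y = ⟨lb, [bit b]⟩) (hC : z C = ⟨[], [bit c]⟩) :
    Run d (addS unbit bit e X Y C) ⟨m, z⟩ 5
      ⟨m, update (update (update z X ⟨la, bit (sm3 a b c) :: r⟩) Y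
        (Op.app d .left ⟨lb, []⟩)) C ⟨[], [bit (cy3 a b c)]⟩⟩ := by
  have h1 := run_act' (d := d) (f := X) (o := .left) (m := m) (z := z) (v := ⟨la, bit a :: r⟩)
    (by rw [hX]; rfl)
  have h2 : Run d (.prim fun m x => (m, some (X, .write (bit (sm3 (ub unbit e (x X))
      (ub unbit e (x Y)) (ub unbit e (x C)))))) : Prog M F α)
      ⟨m, update z X ⟨la, bit a :: r⟩⟩ 1 ⟨m, update z X ⟨la, bit (sm3 a b c) :: r⟩⟩ := by
    apply Run.prim'
    simp [appAct, Store.reads, hY, hC, Function.update_of_ne hXY.symm,
      Function.update_of_ne hXC.symm, ub, hub]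
  have h3 : Run d (.prim fun m x => (m, some (C, .write (bit (cy3 (sm3 (ub unbit e (x X))
        (ub unbit e (x Y)) (ub unbit e (x C))) (ub unbit e (x Y)) (ub unbit e (x C))))))
        : Prog M F α)
      ⟨m, update z X ⟨la, bit (sm3 a b c) :: r⟩⟩ 1
      ⟨m, update (update z X ⟨la, bit (sm3 a b c) :: r⟩) C ⟨[], [bit (cy3 a b c)]⟩⟩ := by
    apply Run.prim'
    simp [appAct, Store.reads, hY, hC, Function.update_of_ne hXY.symm,
      Function.update_of_ne hXC.symm, ub, hub, cy3_sm3]
  have h4 := run_act' (d := d) (f := Y) (o := .trunc) (m := m)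
    (z := update (update z X ⟨la, bit (sm3 a b c) :: r⟩) C ⟨[], [bit (cy3 a b c)]⟩)
    (v := ⟨lb, []⟩) (by
      rw [Function.update_of_ne hYC, Function.update_of_ne hXY.symm, hY]
      rfl)
  have h5 := run_act' (d := d) (f := Y) (o := .left) (m := m)
    (z := update (update (update z X ⟨la, bit (sm3 a b c) :: r⟩) C
      ⟨[], [bit (cy3 a b c)]⟩) Y ⟨lb, []⟩)
    (v := Op.app d .left ⟨lb, []⟩) (by rw [Function.update_self])
  have e1 : update (update (update z X ⟨la, bit (sm3 a b c) :: r⟩) C
      ⟨[], [bit (cy3 a b c)]⟩) Y (Op.app d .left ⟨lb, []⟩) =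
      update (update (update z X ⟨la, bit (sm3 a b c) :: r⟩) Y
        (Op.app d .left ⟨lb, []⟩)) C ⟨[], [bit (cy3 a b c)]⟩ := Function.update_comm hYC.symm _ _ _
  rw [Function.update_idem, e1] at h5
  exact Run.seq h1 (Run.seq h2 (Run.seq h3 (Run.seq h4 h5)))

theorem upd7 {X Y C : F} (hXY : X ≠ Y) (hXC : X ≠ C) (hYC : Y ≠ C) (z : F → Zip α)
    (a b c a' b' c' : Zip α) :
    update (update (update (update (update (update z X a) Y b) C c) X a') Y b') C c'
      = update (update (update z X a') Y b') C c' := by
  funext k
  simp only [Function.update_apply]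
  split_ifs <;> simp_all

theorem run_addLoop {unbit : α → Bool} {bit : Bool → α} (hub : ∀ b, unbit (bit b) = b) {e : α}
    {X Y C : F} (hXY : X ≠ Y) (hXC : X ≠ C) (hYC : Y ≠ C) {m : M} :
    ∀ (a b : List Bool) (c : Bool) (r : List α) (z : F → Zip α), a.length = b.length →
    z X = ⟨a.map bit, r⟩ → z Y = Op.app d .left ⟨b.map bit, []⟩ → z C = ⟨[], [bit c]⟩ →
    Run d (addLoop unbit bit e X Y C) ⟨m, z⟩ (6 * a.length + 1)
      ⟨m, update (update (update z X ⟨[], ((addl a b c).map bit).reverse ++ r⟩) Y ⟨[], []⟩) C
        ⟨[], [bit (cyl a b c)]⟩⟩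
  | [], [], c, r, z, _, hX, hY, hC => by
    have hY' : z Y = ⟨[], []⟩ := hY
    have h1 : Run d (addLoop unbit bit e X Y C) ⟨m, z⟩ 1 ⟨m, z⟩ :=
      Run.loopF (by simp [Store.reads, hY'])
    simp only [addl, cyl, List.map_nil, List.reverse_nil, List.nil_append]
    have hX' : z X = ⟨[], r⟩ := hX
    rw [upd_self z X _ hX', upd_self z Y _ hY', upd_self z C _ hC]
    exact h1.mono (by simp)
  | a :: as, b :: bs, c, r, z, h, hX, hY, hC => by
    have h1 := run_addS (d := d) (m := m) (e := e) hub hXY hXC hYC (z := z)
      (la := as.map bit) (lb := bs.map bit) (a := a) (b := b) (c := c) (r := r) hX hY hC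
    have h2 := run_addLoop hub (e := e) (m := m) hXY hXC hYC as bs (cy3 a b c)
      (bit (sm3 a b c) :: r) (update (update (update z X ⟨as.map bit, bit (sm3 a b c) :: r⟩) Y
        (Op.app d .left ⟨bs.map bit, []⟩)) C ⟨[], [bit (cy3 a b c)]⟩) (by simpa using h)
      (by rw [Function.update_of_ne hXC, Function.update_of_ne hXY, Function.update_self])
      (by rw [Function.update_of_ne hYC, Function.update_self]) (Function.update_self _ _ _)
    rw [upd7 hXY hXC hYC] at h2
    have hY' : z Y = ⟨bs.map bit, [bit b]⟩ := hY
    have h3 := Run.loopT (d := d) (c := fun _ x => (x Y).isSome)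
      (s := (⟨m, z⟩ : Store M F α)) (by simp [Store.reads, hY']) h1 h2
    simp only [addl, cyl, List.map_cons, List.reverse_cons, List.append_assoc,
      List.cons_append, List.nil_append]
    refine Run.mono h3 ?_
    rw [List.length_cons]
    omega

/-- The file `Y` is added to the file `X` (of the same length) and cleared; `C` is an empty
scratch file. -/
def addF (unbit : α → Bool) (bit : Bool → α) (e : α) (X Y C : F) : Prog M F α :=
  .seq (toEnd X) (.seq (toEnd Y) (.seq (act Y .left) (.seq (act C (.write (bit false)))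
    (.seq (addLoop unbit bit e X Y C) (act C .trunc)))))

theorem run_addF {unbit : α → Bool} {bit : Bool → α} (hub : ∀ b, unbit (bit b) = b) {e : α}
    {X Y C : F} (hXY : X ≠ Y) (hXC : X ≠ C) (hYC : Y ≠ C) {m : M} {x y : List Bool}
    {z : F → Zip α} (hxy : x.length = y.length) (hX : z X = ⟨[], x.map bit⟩)
    (hY : z Y = ⟨[], y.map bit⟩) (hC : z C = ⟨[], []⟩) :
    Run d (addF unbit bit e X Y C) ⟨m, z⟩ (10 * x.length + 6)
      ⟨m, update (update z X ⟨[], (addB x y).map bit⟩) Y ⟨[], []⟩⟩ := by
  have h1 := run_toEnd (d := d) (m := m) (x.map bit) [] z hX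
  set z1 := update z X ⟨(x.map bit).reverse ++ [], []⟩ with hz1
  have h2 := run_toEnd (d := d) (m := m) (X := Y) (y.map bit) [] z1
    (by rw [hz1, Function.update_of_ne hXY.symm]; exact hY)
  set z2 := update z1 Y ⟨(y.map bit).reverse ++ [], []⟩ with hz2
  have h3 := run_act' (d := d) (f := Y) (o := .left) (m := m) (z := z2)
    (v := Op.app d .left ⟨(y.map bit).reverse, []⟩) (by
      rw [hz2, Function.update_self, List.append_nil])
  set z3 := update z2 Y (Op.app d .left ⟨(y.map bit).reverse, []⟩) with hz3
  have h4 := run_act' (d := d) (f := C) (o := .write (bit false)) (m := m) (z := z3)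
    (v := ⟨[], [bit false]⟩) (by
      rw [hz3, Function.update_of_ne hYC.symm, hz2, Function.update_of_ne hYC.symm, hz1,
        Function.update_of_ne hXC.symm, hC]
      rfl)
  set z4 := update z3 C ⟨[], [bit false]⟩ with hz4
  have h5 := run_addLoop (d := d) hub (e := e) (m := m) hXY hXC hYC x.reverse y.reverse false []
    z4 (by simpa using hxy)
    (by
      rw [hz4, Function.update_of_ne hXC, hz3, Function.update_of_ne hXY, hz2,
        Function.update_of_ne hXY, hz1, Function.update_self]
      simp)
    (by
      rw [hz4, Function.update_of_ne hYC, hz3, Function.update_self, List.map_reverse])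
    (by rw [hz4, Function.update_self])
  set z5 := update (update (update z4 X ⟨[], ((addl x.reverse y.reverse false).map bit).reverse
    ++ []⟩) Y ⟨[], []⟩) C ⟨[], [bit (cyl x.reverse y.reverse false)]⟩ with hz5
  have h6 := run_act' (d := d) (f := C) (o := .trunc) (m := m) (z := z5) (v := ⟨[], []⟩) (by
    rw [hz5, Function.update_self]
    rfl)
  obtain ⟨g1, g2⟩ := addl_spec x.reverse y.reverse false (by simpa using hxy)
  have e1 : (addl x.reverse y.reverse false).reverse = addB x y := by
    unfold addB
    have g3 : (addl x.reverse y.reverse false).reverse.length = x.length := by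
      rw [List.length_reverse, g1, List.length_reverse]
    rw [← H778.bits_val (addl x.reverse y.reverse false).reverse, g3]
    simp only [List.reverse_reverse, List.length_reverse, Bool.toNat_false, add_zero] at g2
    rw [← g2, ← H778.bits_mod, ← H778.bits_mod x.length (_ + _), Nat.add_mul_mod_self_left]
  have e2 : update z5 C ⟨[], []⟩ = update (update z X ⟨[], (addB x y).map bit⟩) Y ⟨[], []⟩ := by
    have e3 : ((addl x.reverse y.reverse false).map bit).reverse ++ [] = (addB x y).map bit := by
      rw [← e1, List.append_nil, List.map_reverse]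
    rw [hz5, e3, hz4, hz3, hz2, hz1]
    funext k
    simp only [Function.update_apply]
    split_ifs <;> simp_all
  rw [e2] at h6
  refine (Run.seq h1 (Run.seq h2 (Run.seq h3 (Run.seq h4 (Run.seq h5 h6))))).mono ?_
  simp only [List.length_map, List.length_reverse]
  omega

end Vale.Agent.P338.R2.H968.Bp
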