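import Vale.Agent.P338.R2.H784.Bp.Ops
import Vale.Agent.P338.R2.H968.Bp.Mac
import Vale.Agent.P338.R2.H293.Bp.Batch

/-!
P338, stage 3: the copy programs of a piece: `pair`, `add`, `cpw`.
-/

namespace Vale.Agent.P338.R2.H968.Bp

open Vale.Agent.P338.R2.H898
open Vale.Agent.P338.R2.H968
open Vale.Agent.P338.R2.H784
open Vale.Agent.P338.R2.H784.Fp
open Vale.Agent.P338.R2.H784.Bp
open Vale.Agent.P338.R2.H968.CallEnv (mem0)
open Function (update)

variable {A A₀ : MTM} {Y : Type} [DecidableEq (LG A.Tape A₀.Tape Y)]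

theorem bB_pos (W : ℕ) : 1 ≤ bB W := by
  unfold bB
  have := H282.Bp.gB_pos W
  omega

theorem n_pos {W n q om nu iv N : ℕ} {S : ZS (Al A A₀)} {B : BS (Al A A₀)}
    (h : InPc A A₀ W n q om nu iv N S B) : 1 ≤ n ∧ W ≤ n := by
  have h1 := h.prm.hW
  have h2 := h.hN
  have h3 := h.hn
  have h4 : W ≤ 400 * N * W := Nat.le_mul_of_pos_left _ (by omega)
  omega

/-- `x`, `y` to `t`, in blocks of `q - 1` elements: the width is read off the ruler `b`. -/
def pairP (A A₀ : MTM) (Y : Type) [DecidableEq (LG A.Tape A₀.Tape Y)] : PG A A₀ Y :=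
  mergeF .u (ng .x) (ng .y) (ng .t) (ng (.r .b))

theorem run_pairP {W n q om nu iv N : ℕ} {S : ZS (Al A A₀)} {B : BS (Al A A₀)}
    {w w' : List Bool} (h : InPc A A₀ W n q om nu iv N S B) (hx : B.x = bw A A₀ w)
    (hy : B.y = bw A A₀ w') (ht : B.t = ⟨[], []⟩) (hw : w.length = N * (q - 1) * bB W)
    (hw' : w'.length = N * (q - 1) * bB W) :
    Prog.Run (dd A A₀) (pairP A A₀ Y) (st2 Y S B) (21 * n)
      (st2 Y S { B with
        x := ⟨[], []⟩
        y := ⟨[], []⟩
        t := bw A A₀ (pairB (bB W) (N * (q - 1)) w w') }) := by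
  have hl : (List.replicate (bB W) (Sy.u : Al A A₀)).length = bB W := List.length_replicate ..
  have h1 := run_mergeF (d := dd A A₀) (M := Mem A A₀) (e := Sy.u) (X := ng .x) (Y := ng .y)
    (O := ng .t) (rb := ng (.r .b)) (F := LG A.Tape A₀.Tape Y) (by simp [ng]) (by simp [ng])
    (by simp [ng]) (by simp [ng]) (by simp [ng]) (by simp [ng])
    (R := List.replicate (bB W) (Sy.u : Al A A₀)) (by rw [hl]; exact bB_pos W) (m := (mem0 A, mem0 A₀))
    (bit := fun b => (bt b : Al A A₀)) (n := N * (q - 1)) (x := w) (y := w') (z := z2 Sy.u S B) (by rw [hl, hw])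
    (by rw [hl, hw'])
    (by
      show ru Sy.u (B.r .b) = _
      rw [h.r]
      rfl)
    hx hy ht
  rw [hl, z2_x, z2_y, z2_t] at h1
  refine h1.mono ?_
  have h2 := H293.Bp.size_fwd h.prm h.hn
  have h3 := n_pos h
  have h4 := bB_pos W
  have h5 : bB W * (N * (q - 1)) ≤ n := by
    refine le_trans (Nat.mul_le_mul_left _ (Nat.mul_le_mul_left _ ?_)) h2
    omega
  have h6 : N * (q - 1) ≤ n := le_trans (Nat.le_mul_of_pos_left _ h4) h5
  nlinarith

theorem unbit_bt (b : Bool) : Sy.unbit (bt b : Al A A₀) = b := by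
  cases b <;> rfl

/-- `x := x + y`. -/
def addP (A A₀ : MTM) (Y : Type) [DecidableEq (LG A.Tape A₀.Tape Y)] : PG A A₀ Y :=
  addF Sy.unbit (fun b => bt b) (dd A A₀) (ng .x) (ng .y) (ng .cb)

theorem run_addP {W n q om nu iv N : ℕ} {S : ZS (Al A A₀)} {B : BS (Al A A₀)}
    {w w' : List Bool} (h : InPc A A₀ W n q om nu iv N S B) (hx : B.x = bw A A₀ w)
    (hy : B.y = bw A A₀ w') (hw : w.length = w'.length) (hn : w.length ≤ n) :
    Prog.Run (dd A A₀) (addP A A₀ Y) (st2 Y S B) (21 * n)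
      (st2 Y S { B with x := bw A A₀ (addB w w'), y := ⟨[], []⟩ }) := by
  have h1 := run_addF (d := dd A A₀) (M := Mem A A₀) (e := dd A A₀) (X := ng .x) (Y := ng .y)
    (C := ng .cb) (F := LG A.Tape A₀.Tape Y) (unbit := Sy.unbit)
    (bit := fun b => (bt b : Al A A₀)) unbit_bt (by simp [ng]) (by simp [ng])
    (by simp [ng]) (m := (mem0 A, mem0 A₀)) (x := w) (y := w') (z := z2 Sy.u S B) hw hx hy rfl
  rw [z2_x, z2_y] at h1
  refine h1.mono ?_
  have h3 := n_pos h
  omega

/-- A word of `W` bits to `opY`. -/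
def cpwP (A A₀ : MTM) (Y : Type) [DecidableEq (LG A.Tape A₀.Tape Y)] (k : WN) : PG A A₀ Y :=
  .seq (drain Sy.u (og (.w k)) (og .opY)) (.seq (act (og (.w k)) .rew) (act (og .opY) .rew))

theorem run_cpwP {W n q om nu iv N : ℕ} {S : ZS (Al A A₀)} {B : BS (Al A A₀)}
    {w : List Bool} (k : WN) (h : InPc A A₀ W n q om nu iv N S B) (hk : S.w k = bw A A₀ w)
    (hw : w.length = W) (hy : S.opY = ⟨[], []⟩) :
    Prog.Run (dd A A₀) (cpwP A A₀ Y k) (st2 Y S B) (21 * n)
      (st2 Y { S with opY := bw A A₀ w } B) := by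
  have hne : (og (.w k) : LG A.Tape A₀.Tape Y) ≠ og .opY := by simp [og, lz]
  have h1 := run_drain (d := dd A A₀) (M := Mem A A₀) (e := Sy.u) (F := LG A.Tape A₀.Tape Y) hne
    (m := (mem0 A, mem0 A₀)) (w.map fun b => (bt b : Al A A₀)) [] [] (z2 Sy.u S B) hk hy
  set z1 : LG A.Tape A₀.Tape Y → Zip (Al A A₀) := update (update (z2 Sy.u S B) (og (.w k))
    ⟨(w.map fun b => (bt b : Al A A₀)).reverse ++ [], []⟩) (og .opY)
    ⟨(w.map fun b => (bt b : Al A A₀)).reverse ++ [], []⟩ with hz1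
  have h2 := run_act' (d := dd A A₀) (f := og (.w k)) (o := .rew) (m := (mem0 A, mem0 A₀))
    (z := z1) (v := bw A A₀ w) (by
      rw [hz1, Function.update_of_ne hne, Function.update_self]
      simp [Op.app])
  have h3 := run_act' (d := dd A A₀) (f := og .opY) (o := .rew) (m := (mem0 A, mem0 A₀))
    (z := update z1 (og (.w k)) (bw A A₀ w)) (v := bw A A₀ w) (by
      rw [Function.update_of_ne hne.symm, hz1, Function.update_self]
      simp [Op.app])
  have e1 : update (update z1 (og (.w k)) (bw A A₀ w)) (og .opY) (bw A A₀ w) =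
      z2 Sy.u { S with opY := bw A A₀ w } B := by
    rw [← z2_opY, hz1]
    funext g
    by_cases g1 : g = og .opY
    · subst g1
      simp
    · rw [Function.update_of_ne g1, Function.update_of_ne g1]
      by_cases g2 : g = og (.w k)
      · subst g2
        rw [Function.update_self]
        exact hk.symm
      · rw [Function.update_of_ne g2, Function.update_of_ne g1, Function.update_of_ne g2]
  rw [e1] at h3
  refine (Prog.Run.seq h1 (Prog.Run.seq h2 h3)).mono ?_
  have h4 := n_pos h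
  rw [List.length_map, hw]
  omega

end Vale.Agent.P338.R2.H968.Bp
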